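import Crest.Agent.Lib.Thorp.Cost
import Crest.Agent.Lib.Thorp.ESmall
import Crest.Agent.Lib.Thorp.HighPart

/-! Imports of the final forms of step E (`avg_WW_le`, in `ESmall`) and H-high (`high_mult`, in `HighPart`). -/
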