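import Mathlib
import Crest.Agent.Lib.Thorp.HighPart

/-!
# Facts on the operator of the kernel of `K_l`

* `tupMat_lawOf_Kl`: the tuple matrix is `Ml`;
* `tupOp_isPositive`: the operator is positive (it is `B Bᵀ`);
* `omegaTr_zero`, `omegaTr_one`: the first two levels;
* `trace_pow_anti`: traces of powers decrease; `one_le_trace`: they are at least one;
* `trace_split`: the trace in terms of the low levels and the high part.
-/

set_option autoImplicit false
set_option linter.unusedSectionVars false

namespace Crest.Agent.Thorp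

open Finset
open scoped InnerProductSpace

section General

variable {W : Type*} [Fintype W] [DecidableEq W]
variable {κ : Type*} [Fintype κ] [DecidableEq κ] {C : Type*} [Fintype C]

/-- Summing against a law. -/
theorem sum_lawOf_mul (F : C → Equiv.Perm W) (h : Equiv.Perm W → ℝ) :
    ∑ g, lawOf F g * h g = avg (fun c => h (F c)) := by
  classical
  simp only [lawOf_eq_avg, avg, sum_div, sum_mul]
  rw [sum_comm]
  refine sum_congr rfl fun c _ => ?_
  rw [sum_eq_single (F c)]
  · simp
    ring
  · intro g _ hg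
    simp [Ne.symm hg]
  · simp

/-- A positive operator vanishing on a subspace has trace zero there. -/
theorem trOn_eq_zero {E : Type*} [NormedAddCommGroup E] [InnerProductSpace ℝ E] [FiniteDimensional ℝ E]
    {A : E →ₗ[ℝ] E} {S : Submodule ℝ E} (h : ∀ x ∈ S, A x = 0) : trOn A S = 0 := by
  have : A ∘ₗ prj S = 0 := by
    ext1 x
    exact h _ (prj_mem S x)
  simp [trOn, this]

/-- The level of the empty tuple. -/
theorem omegaTr_zero [Nonempty C] (F : C → Equiv.Perm W) (T : ℕ) :
    omegaTr (lawOf F) (Fin 0) T = 1 := by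
  classical
  have h1 : tupOp (lawOf F) (Fin 0) = 1 := by
    ext1 f
    ext x
    rw [tupOp_apply]
    have hx : ∀ g : Equiv.Perm W, x.trans g.toEmbedding = x := fun g => by
      ext k
      exact k.elim0
    simp only [hx, ← sum_mul, sum_lawOf, one_mul]
    rfl
  have h2 : W0 (Fin 0) W = ⊤ := by
    rw [eq_top_iff]
    intro f _ i
    exact i.elim0
  unfold omegaTr
  rw [h1, h2, one_pow, trOn_top, LinearMap.trace_one, finrank_euclideanSpace]
  simp

/-- Traces of powers in terms of spectra: eigenvalues at most one imply decreasing traces. -/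
theorem trace_pow_anti {E : Type*} [NormedAddCommGroup E] [InnerProductSpace ℝ E]
    [FiniteDimensional ℝ E] {A : E →ₗ[ℝ] E} (hA : A.IsPositive)
    (h1 : ∀ (c : ℝ) (v : E), v ≠ 0 → A v = c • v → c ≤ 1) {a b : ℕ} (hab : a ≤ b) :
    LinearMap.trace ℝ E (A ^ b) ≤ LinearMap.trace ℝ E (A ^ a) := by
  obtain ⟨n, v, l, -, hv0, hl, hAv, htr⟩ := exists_spectral_on hA (S := ⊤) (fun _ _ => Submodule.mem_top)
  have h2 := htr a
  have h3 := htr b
  rw [trOn_top] at h2 h3
  rw [h2, h3]
  exact sum_le_sum fun i _ => pow_le_pow_of_le_one (hl i) (h1 _ _ (hv0 i) (hAv i)) hab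

/-- Eigenvalues of the operator of a probability law are at most one. -/
theorem eigenvalue_le_one (μ : Equiv.Perm W → ℝ) (hμ : ∀ g, 0 ≤ μ g) (hμ1 : ∑ g, μ g = 1) (c : ℝ)
    (v : TupE κ W) (hv : v ≠ 0) (heig : tupOp μ κ v = c • v) : c ≤ 1 := by
  classical
  have hne : ∃ x, v x ≠ 0 := by
    by_contra hcon
    push Not at hcon
    apply hv
    ext x
    simpa using hcon x
  obtain ⟨x₀, hx₀⟩ := hne
  have hnon : (univ : Finset (κ ↪ W)).Nonempty := ⟨x₀, mem_univ _⟩
  obtain ⟨x, -, hmax⟩ := exists_max_image univ (fun x => |v x|) hnon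
  have hpos : 0 < |v x| := lt_of_lt_of_le (abs_pos.2 hx₀) (hmax x₀ (mem_univ _))
  have h1 : (tupOp μ κ v) x = c * v x := by rw [heig]; simp
  rw [tupOp_apply] at h1
  have h2 : |c * v x| ≤ |v x| := by
    rw [← h1]
    calc |∑ g, μ g * v (x.trans g.toEmbedding)| ≤ ∑ g, |μ g * v (x.trans g.toEmbedding)| :=
          abs_sum_le_sum_abs _ _
      _ ≤ ∑ g, μ g * |v x| := by
          refine sum_le_sum fun g _ => ?_
          rw [abs_mul, abs_of_nonneg (hμ g)]
          exact mul_le_mul_of_nonneg_left (hmax _ (mem_univ _)) (hμ g)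
      _ = |v x| := by rw [← sum_mul, hμ1, one_mul]
  rw [abs_mul] at h2
  have h3 : |c| ≤ 1 := by
    by_contra hcon
    push Not at hcon
    nlinarith
  exact (le_abs_self c).trans h3

end General

section Kernel

variable {I : Type*} [Fintype I] [DecidableEq I] {κ : Type*} [Fintype κ] [DecidableEq κ]

/-- The tuple matrix of the law of `K_l` is `Ml`. -/
theorem tupMat_lawOf_Kl (l : List I) : tupMat (lawOf (Kl l)) κ = Ml l κ := by
  classical
  ext x y
  unfold tupMat Ml Pl
  rw [sum_lawOf_mul]
  refine avg_congr fun p => ?_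
  have hiff : x.trans (Kl l p).toEmbedding = y ↔ (fun a => Kl l p (x a)) = y := by
    constructor
    · intro h
      funext a
      exact congrArg (fun u : κ ↪ (I → Bool) => u a) h
    · intro h
      ext1 a
      exact congrFun h a
  by_cases hc : x.trans (Kl l p).toEmbedding = y
  · rw [if_pos hc, if_pos (hiff.1 hc)]
  · rw [if_neg hc, if_neg (fun e => hc (hiff.2 e))]

/-- Half of the kernel. -/
noncomputable def halfF (l : List I) (f : TupE κ (I → Bool)) (z : κ ↪ (I → Bool)) : ℝ :=
  avg (fun A : Tab I => f (z.trans (sweepQ A l)⁻¹.toEmbedding))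

/-- The quadratic form of the kernel. -/
theorem inner_tupOp_Kl (l : List I) (f g : TupE κ (I → Bool)) :
    ⟪tupOp (lawOf (Kl l)) κ f, g⟫_ℝ = ∑ z, halfF l f z * halfF l g z := by
  classical
  have h1 : ∀ z : κ ↪ (I → Bool), halfF l f z * halfF l g z =
      avg (fun p : Tab I × Tab I =>
        g (z.trans (sweepQ p.1 l)⁻¹.toEmbedding) * f (z.trans (sweepQ p.2 l)⁻¹.toEmbedding)) := by
    intro z
    rw [avg_prod (fun p : Tab I × Tab I =>
        g (z.trans (sweepQ p.1 l)⁻¹.toEmbedding) * f (z.trans (sweepQ p.2 l)⁻¹.toEmbedding))]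
    simp only [avg_const_mul]
    have h2 : avg (fun A : Tab I => g (z.trans (sweepQ A l)⁻¹.toEmbedding) * halfF l f z) =
        avg (fun A : Tab I => halfF l f z * g (z.trans (sweepQ A l)⁻¹.toEmbedding)) :=
      avg_congr fun A => mul_comm _ _
    unfold halfF at h2 ⊢
    rw [h2, avg_const_mul]
  simp only [h1]
  rw [PiLp.inner_apply]
  simp only [RCLike.inner_apply, conj_trivial, tupOp_lawOf]
  have h3 : ∀ x : κ ↪ (I → Bool), g x * avg (fun p : Tab I × Tab I => f (x.trans (Kl l p).toEmbedding)) =
      avg (fun p : Tab I × Tab I => g x * f (x.trans (Kl l p).toEmbedding)) :=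
    fun x => (avg_const_mul _ _).symm
  simp only [h3]
  have hsw : ∀ (X Y : Type _) [Fintype X] [Fintype Y] (F : X → Y → ℝ),
      ∑ x, avg (F x) = avg (fun y => ∑ x, F x y) := by
    intro X Y _ _ F
    simp only [avg, ← sum_div]
    rw [sum_comm]
  rw [hsw, hsw]
  refine avg_congr fun p => ?_
  rw [← Equiv.sum_comp (transEquiv (κ := κ) (sweepQ p.1 l)) (fun z =>
    g (z.trans (sweepQ p.1 l)⁻¹.toEmbedding) * f (z.trans (sweepQ p.2 l)⁻¹.toEmbedding))]
  refine sum_congr rfl fun x _ => ?_
  have e1 : (transEquiv (κ := κ) (sweepQ p.1 l) x).trans (sweepQ p.1 l)⁻¹.toEmbedding = x := by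
    ext1 k
    change (sweepQ p.1 l)⁻¹ (sweepQ p.1 l (x k)) = _
    simp
  have e2 : (transEquiv (κ := κ) (sweepQ p.1 l) x).trans (sweepQ p.2 l)⁻¹.toEmbedding =
      x.trans (Kl l p).toEmbedding := by
    ext1 k
    rfl
  rw [e1, e2]

/-- **The kernel is a positive operator.** -/
theorem tupOp_isPositive (l : List I) : (tupOp (lawOf (Kl l)) κ).IsPositive := by
  refine ⟨fun f g => ?_, fun f => ?_⟩
  · rw [inner_tupOp_Kl, real_inner_comm, inner_tupOp_Kl]
    exact sum_congr rfl fun z _ => mul_comm _ _
  · have h : 0 ≤ ⟪tupOp (lawOf (Kl l)) κ f, f⟫_ℝ := by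
      rw [inner_tupOp_Kl]
      exact sum_nonneg fun z _ => mul_self_nonneg _
    simpa using h

theorem tupOp_pow_isPositive (l : List I) (T : ℕ) : (tupOp (lawOf (Kl l)) κ ^ T).IsPositive :=
  isPositive_pow (tupOp_isPositive l) T

/-- Evaluating a uniform Boolean function at a point is a fair bit. -/
theorem avg_eval {X : Type*} [Fintype X] [DecidableEq X] (c : X) (F : Bool → ℝ) :
    avg (fun a : X → Bool => F (a c)) = (F false + F true) / 2 := by
  have h := avg_update (fun (x : Bool) (_ : X → Bool) => F x) c (fun _ _ _ => rfl)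
  refine h.trans ?_
  simp only [avg_const]
  simp [avg]
  ring

/-- The kernel on one wire. -/
theorem Pl_single (l : List I) (hl : l.Nodup) (x y : Fin 1 → I → Bool) :
    Pl l x y = if (∀ j, j ∉ l → x 0 j = y 0 j) then (1 / 2 : ℝ) ^ l.length else 0 := by
  classical
  induction l generalizing x y with
  | nil =>
    rw [Pl_nil]
    have hiff : x = y ↔ ∀ j, j ∉ ([] : List I) → x 0 j = y 0 j := by
      constructor
      · rintro rfl _ _
        rfl
      · intro h
        funext t j
        have ht : t = 0 := Subsingleton.elim _ _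
        subst ht
        exact h j (by simp)
    by_cases hc : x = y
    · rw [if_pos hc, if_pos (hiff.1 hc)]
      simp
    · rw [if_neg hc, if_neg (fun e => hc (hiff.2 e))]
  | cons i l ih =>
    have hi : i ∉ l := (List.nodup_cons.1 hl).1
    have hl' : l.Nodup := (List.nodup_cons.1 hl).2
    rw [Pl_cons i l hi]
    simp only [ih hl']
    -- the condition
    have hcond : ∀ a b : (I → Bool) → Bool,
        (∀ j, j ∉ l → layer i a (x 0) j = layer i b (y 0) j) ↔
          (∀ j, j ∉ i :: l → x 0 j = y 0 j) ∧
            xor (x 0 i) (a (Function.update (x 0) i false)) =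
              xor (y 0 i) (b (Function.update (y 0) i false)) := by
      intro a b
      constructor
      · intro h
        constructor
        · intro j hj
          have hji : j ≠ i := fun e => hj (by simp [e])
          have hjl : j ∉ l := fun e => hj (by simp [e])
          have := h j hjl
          simpa only [layer_apply, layerFun_ne hji] using this
        · have := h i hi
          simpa only [layer_apply, layerFun_same] using this
      · rintro ⟨h1, h2⟩ j hj
        by_cases hji : j = i
        · subst hji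
          simpa only [layer_apply, layerFun_same] using h2
        · have := h1 j (by simp [hji, hj])
          simpa only [layer_apply, layerFun_ne hji] using this
    simp only [hcond]
    by_cases hc : ∀ j, j ∉ i :: l → x 0 j = y 0 j
    · have hcT := eq_true hc
      simp only [hcT, true_and, if_true]
      -- two fair bits
      have h1 : ∀ a : (I → Bool) → Bool,
          avg (fun b : (I → Bool) → Bool =>
            if xor (x 0 i) (a (Function.update (x 0) i false)) =
                xor (y 0 i) (b (Function.update (y 0) i false))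
            then (1 / 2 : ℝ) ^ l.length else 0) = (1 / 2 : ℝ) ^ (l.length + 1) := by
        intro a
        rw [avg_eval (Function.update (y 0) i false) (fun t =>
          if xor (x 0 i) (a (Function.update (x 0) i false)) = xor (y 0 i) t
            then (1 / 2 : ℝ) ^ l.length else 0)]
        cases x 0 i <;> cases y 0 i <;> cases a (Function.update (x 0) i false) <;>
          simp [pow_succ] <;> ring
      simp only [h1, avg_const, List.length_cons]
    · have hcF := eq_false hc
      simp only [hcF, false_and, if_false, avg_const]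

/-- Level one: on one wire the kernel is flat. -/
theorem tupOp_one_eq_zero (l : List I) (hl : l.Nodup) (hall : ∀ i, i ∈ l) {f : TupE (Fin 1) (I → Bool)}
    (hf : f ∈ W0 (Fin 1) (I → Bool)) : tupOp (lawOf (Kl l)) (Fin 1) f = 0 := by
  classical
  ext x
  rw [tupOp_eq_toEuclideanLin, tupMat_lawOf_Kl]
  simp only [Matrix.toLpLin_apply, Matrix.mulVec, dotProduct, Ml]
  have h1 : ∀ y : Fin 1 ↪ (I → Bool), Pl l x y = (1 / 2 : ℝ) ^ l.length := by
    intro y
    rw [Pl_single l hl, if_pos]
    intro j hj
    exact absurd (hall j) hj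
  simp only [h1, ← mul_sum]
  have h2 := hf 0 x
  rw [filter_true_of_mem (fun y _ k hk => absurd (Subsingleton.elim k 0) hk)] at h2
  rw [h2]
  simp

/-- The level one vanishes. -/
theorem omegaTr_one (l : List I) (hl : l.Nodup) (hall : ∀ i, i ∈ l) {T : ℕ} (hT : 1 ≤ T) :
    omegaTr (lawOf (Kl l)) (Fin 1) T = 0 := by
  unfold omegaTr
  refine trOn_eq_zero fun f hf => ?_
  obtain ⟨T', rfl⟩ : ∃ T', T = T' + 1 := ⟨T - 1, by omega⟩
  rw [pow_succ, Module.End.mul_apply, tupOp_one_eq_zero l hl hall hf, map_zero]

/-- Traces of powers are decreasing. -/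
theorem trace_Kl_anti (l : List I) {a b : ℕ} (hab : a ≤ b) :
    LinearMap.trace ℝ (TupE κ (I → Bool)) (tupOp (lawOf (Kl l)) κ ^ b) ≤
      LinearMap.trace ℝ (TupE κ (I → Bool)) (tupOp (lawOf (Kl l)) κ ^ a) :=
  trace_pow_anti (tupOp_isPositive l)
    (fun c v hv heig => eigenvalue_le_one _ (lawOf_nonneg _) (sum_lawOf _) c v hv heig) hab

/-- The constants give the eigenvalue one. -/
theorem one_le_trace (l : List I) (T : ℕ) :
    1 ≤ LinearMap.trace ℝ (TupE (I → Bool) (I → Bool)) (tupOp (lawOf (Kl l)) (I → Bool) ^ T) := by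
  have h1 := trOn_levelPiece (lawOf (Kl l)) T (∅ : Finset (I → Bool)) le_rfl
  have hc : Fintype.card {i // i ∈ (∅ : Finset (I → Bool))} = 0 := by simp
  have h2 := omegaTr_congr (lawOf (Kl l)) (Fintype.equivFinOfCardEq hc) T
  have h3 := omegaTr_zero (Kl l) T
  rw [← trOn_top]
  calc (1 : ℝ) = trOn (tupOp (lawOf (Kl l)) (I → Bool) ^ T) (levelPiece (I → Bool) ∅) := by
        rw [h1, ← h2, h3]
    _ ≤ _ := trOn_mono (tupOp_pow_isPositive l T) le_top

end Kernel

end Crest.Agent.Thorp
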